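import Vale.Agent.P321.Final

namespace Vale.Agent.Results.P321.Superpoly

open Vale.Agent.P321

/-- For every deletion probability, worst-case trace reconstruction needs at least
`n ^ (c log log n)` traces; in particular no polynomial number of traces suffices. -/
theorem result : ∃ c : ℝ, 0 < c ∧ ∀ q : ℝ, 0 < q → q < 1 → ∃ N : ℕ, ∀ n ≥ N, ∀ m : ℕ,
    Suffices q n m → (n : ℝ) ^ (c * Real.log (Real.log n)) ≤ m :=
  ⟨1 / 2 ^ 20, by norm_num, fun _ h0 h1 => main h0 h1⟩

end Vale.Agent.Results.P321.Superpoly
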